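import Vale.Agent.P141.Gadget

/-!
# P141: the trilinear Hilbert transform is unbounded at some Hölder tuple for every `r < 1/2`,
and in explicit regions of Hölder tuples
-/

namespace Vale.Agent.Results.P141.Unbounded

open Vale.Agent.P141 MeasureTheory
open scoped ENNReal

/-- The five first digits. -/
def setA : Finset ℤ := {0, 2, 4, 6, 8}
/-- The four second digits. -/
def setB : Finset ℤ := {0, 1, 2, 3}
/-- The six third digits. -/
def setC : Finset ℤ := {-6, -4, -2, 0, 2, 4}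
/-- The eighteen digit pairs. -/
def setG : Finset (ℤ × ℤ) := (setA ×ˢ setB).filter fun q => q ≠ (8, 0) ∧ q ≠ (0, 3)

lemma gadget : Gadget setA setB setC setG 18 where
  two := by norm_num
  nA := ⟨0, by decide⟩
  nB := ⟨0, by decide⟩
  nC := ⟨0, by decide⟩
  memA := by decide +kernel
  memB := by decide +kernel
  memC := by decide +kernel
  inj := by decide +kernel

lemma card_setA : setA.card = 5 := by decide +kernel
lemma card_setB : setB.card = 4 := by decide +kernel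
lemma card_setC : setC.card = 6 := by decide +kernel
lemma card_setG : setG.card = 18 := by decide +kernel

lemma general {p₁ p₂ p₃ : ℝ≥0∞} {r : ℝ} (hr : 0 < r)
    (h : 18 * (5 : ℝ) ^ (p₁⁻¹).toReal * 4 ^ (p₂⁻¹).toReal * 6 ^ (p₃⁻¹).toReal < 18 ^ (1 / r)) :
    ¬ BoundedAt p₁ p₂ p₃ r := by
  refine not_boundedAt gadget hr ?_
  rw [card_setA, card_setB, card_setC, card_setG]
  exact_mod_cast h

lemma log_120_lt : 50 * Real.log 120 < 83 * Real.log 18 := by
  have h : ((120 : ℝ)) ^ 50 < (18 : ℝ) ^ 83 := by norm_num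
  have := Real.log_lt_log (by positivity) h
  rwa [Real.log_pow, Real.log_pow] at this

lemma threshold : (67 / 50 : ℝ) < 3 - Real.log 120 / Real.log 18 := by
  have h18 : 0 < Real.log 18 := Real.log_pos (by norm_num)
  have : Real.log 120 / Real.log 18 < 83 / 50 := by
    rw [div_lt_div_iff₀ h18 (by norm_num)]
    linarith [log_120_lt]
  linarith

lemma diagonal {p : ℝ} (hp : 1 < p) (hp' : p < 3 - Real.log 120 / Real.log 18) :
    IsHolder (ENNReal.ofReal p) (ENNReal.ofReal p) (ENNReal.ofReal p) (p / 3) ∧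
      ¬ BoundedAt (ENNReal.ofReal p) (ENNReal.ofReal p) (ENNReal.ofReal p) (p / 3) := by
  have hw : ((ENNReal.ofReal p)⁻¹).toReal = 1 / p := by
    rw [ENNReal.toReal_inv, ENNReal.toReal_ofReal (by linarith), one_div]
  have h18 : 0 < Real.log 18 := Real.log_pos (by norm_num)
  refine ⟨⟨?_, ?_, ?_, by linarith, ?_⟩, general (by linarith) ?_⟩
  · exact ENNReal.one_lt_ofReal.2 hp
  · exact ENNReal.one_lt_ofReal.2 hp
  · exact ENNReal.one_lt_ofReal.2 hp
  · rw [hw]; field_simp; ring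
  · rw [hw, mul_assoc, mul_assoc, ← mul_assoc ((5 : ℝ) ^ (1 / p)),
      ← Real.mul_rpow (by norm_num) (by norm_num), ← Real.mul_rpow (by norm_num) (by norm_num)]
    rw [← Real.log_lt_log_iff (by positivity) (by positivity),
      Real.log_mul (by norm_num) (by positivity), Real.log_rpow (by norm_num),
      Real.log_rpow (by norm_num)]
    norm_num
    have h1 : p * Real.log 18 < 3 * Real.log 18 - Real.log 120 := by
      have := mul_lt_mul_of_pos_right hp' h18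
      rwa [sub_mul, div_mul_cancel₀ _ h18.ne'] at this
    field_simp
    linarith

/-- Six first digits; with `setB24` the sums `2a - b` fill the residues modulo 24. -/
def setA24 : Finset ℤ := {-5, -3, -1, 1, 3, 5}
/-- Four second digits. -/
def setB24 : Finset ℤ := {-2, -1, 0, 1}
/-- The nine third digits of `setA24 ×ˢ setB24`. -/
def setC24 : Finset ℤ := {-9, -7, -5, -3, -1, 1, 3, 5, 7}

lemma gadget24 : Gadget setA24 setB24 setC24 (setA24 ×ˢ setB24) 24 where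
  two := by norm_num
  nA := ⟨-5, by decide⟩
  nB := ⟨0, by decide⟩
  nC := ⟨1, by decide⟩
  memA := by decide +kernel
  memB := by decide +kernel
  memC := by decide +kernel
  inj := by decide +kernel

/-- Five first digits. -/
def setA15 : Finset ℤ := {-5, -3, -1, 1, 3}
/-- Seven second digits. -/
def setB15 : Finset ℤ := {-3, -2, -1, 0, 1, 2, 3}
/-- Three third digits. -/
def setC15 : Finset ℤ := {-1, 1, 3}
/-- The fifteen digit pairs. -/
def setG15 : Finset (ℤ × ℤ) := (setA15 ×ˢ setB15).filter fun q => 2 * q.2 - q.1 ∈ setC15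

lemma gadget15 : Gadget setA15 setB15 setC15 setG15 15 where
  two := by norm_num
  nA := ⟨1, by decide⟩
  nB := ⟨0, by decide⟩
  nC := ⟨1, by decide⟩
  memA := by decide +kernel
  memB := by decide +kernel
  memC := by decide +kernel
  inj := by decide +kernel

/-- Six first digits. -/
def setA12 : Finset ℤ := {-2, 0, 2, 4, 6, 8}
/-- Four second digits. -/
def setB12 : Finset ℤ := {-1, 0, 1, 2}
/-- Three third digits. -/
def setC12 : Finset ℤ := {-4, -2, 0}
/-- The twelve digit pairs. -/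
def setG12 : Finset (ℤ × ℤ) := (setA12 ×ˢ setB12).filter fun q => 2 * q.2 - q.1 ∈ setC12

lemma gadget12 : Gadget setA12 setB12 setC12 setG12 12 where
  two := by norm_num
  nA := ⟨0, by decide⟩
  nB := ⟨0, by decide⟩
  nC := ⟨0, by decide⟩
  memA := by decide +kernel
  memB := by decide +kernel
  memC := by decide +kernel
  inj := by decide +kernel

lemma general24 {p₁ p₂ p₃ : ℝ≥0∞} {r : ℝ} (hr : 0 < r)
    (h : 24 * (6 : ℝ) ^ (p₁⁻¹).toReal * 4 ^ (p₂⁻¹).toReal * 9 ^ (p₃⁻¹).toReal < 24 ^ (1 / r)) :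
    ¬ BoundedAt p₁ p₂ p₃ r := by
  refine not_boundedAt gadget24 hr ?_
  rw [show setA24.card = 6 by decide +kernel, show setB24.card = 4 by decide +kernel,
    show setC24.card = 9 by decide +kernel,
    show (setA24 ×ˢ setB24).card = 24 by decide +kernel]
  exact_mod_cast h

lemma general15 {p₁ p₂ p₃ : ℝ≥0∞} {r : ℝ} (hr : 0 < r)
    (h : 15 * (5 : ℝ) ^ (p₁⁻¹).toReal * 7 ^ (p₂⁻¹).toReal * 3 ^ (p₃⁻¹).toReal < 15 ^ (1 / r)) :
    ¬ BoundedAt p₁ p₂ p₃ r := by
  refine not_boundedAt gadget15 hr ?_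
  rw [show setA15.card = 5 by decide +kernel, show setB15.card = 7 by decide +kernel,
    show setC15.card = 3 by decide +kernel, show setG15.card = 15 by decide +kernel]
  exact_mod_cast h

lemma general12 {p₁ p₂ p₃ : ℝ≥0∞} {r : ℝ} (hr : 0 < r)
    (h : 12 * (6 : ℝ) ^ (p₁⁻¹).toReal * 4 ^ (p₂⁻¹).toReal * 3 ^ (p₃⁻¹).toReal < 12 ^ (1 / r)) :
    ¬ BoundedAt p₁ p₂ p₃ r := by
  refine not_boundedAt gadget12 hr ?_
  rw [show setA12.card = 6 by decide +kernel, show setB12.card = 4 by decide +kernel,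
    show setC12.card = 3 by decide +kernel, show setG12.card = 12 by decide +kernel]
  exact_mod_cast h

lemma power_lt {M A B C x y z : ℝ} (hM : 0 < M) (hA : 0 < A) (hB : 0 < B) (hC : 0 < C)
    (h : Real.log M < x * Real.log (M / A) + y * Real.log (M / B) + z * Real.log (M / C)) :
    M * A ^ x * B ^ y * C ^ z < M ^ (x + y + z) := by
  rw [Real.log_div hM.ne' hA.ne', Real.log_div hM.ne' hB.ne', Real.log_div hM.ne' hC.ne'] at h
  rw [← Real.log_lt_log_iff (by positivity) (by positivity),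
    Real.log_mul (by positivity) (by positivity), Real.log_mul (by positivity) (by positivity),
    Real.log_mul (by positivity) (by positivity), Real.log_rpow hA, Real.log_rpow hB,
    Real.log_rpow hC, Real.log_rpow hM]
  linarith

lemma two_near_one {a b d M x y z : ℝ} (ha : 1 < a) (hb : 1 < b) (hab : a * b = M)
    (hd : M < d ^ 4) (hz : 0 ≤ z) (hx : 1 - z / 4 < x) (hy : 1 - z / 4 < y) :
    Real.log M < x * Real.log a + y * Real.log b + z * Real.log d := by
  have hla := Real.log_pos ha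
  have hlb := Real.log_pos hb
  have hM : 0 < M := hab ▸ mul_pos (by linarith) (by linarith)
  have h4 := Real.log_lt_log hM hd
  rw [Real.log_pow, ← hab, Real.log_mul (by linarith) (by linarith)] at h4
  push_cast at h4
  rw [← hab, Real.log_mul (by linarith) (by linarith)]
  nlinarith [mul_lt_mul_of_pos_right hx hla, mul_lt_mul_of_pos_right hy hlb,
    mul_le_mul_of_nonneg_left h4.le hz]

lemma pair_near_one {p₁ p₂ p₃ : ℝ≥0∞} {r : ℝ} (hH : IsHolder p₁ p₂ p₃ r)
    (h : (1 - (p₃⁻¹).toReal / 4 < (p₁⁻¹).toReal ∧ 1 - (p₃⁻¹).toReal / 4 < (p₂⁻¹).toReal) ∨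
      (1 - (p₂⁻¹).toReal / 4 < (p₁⁻¹).toReal ∧ 1 - (p₂⁻¹).toReal / 4 < (p₃⁻¹).toReal) ∨
      (1 - (p₁⁻¹).toReal / 4 < (p₂⁻¹).toReal ∧ 1 - (p₁⁻¹).toReal / 4 < (p₃⁻¹).toReal)) :
    ¬ BoundedAt p₁ p₂ p₃ r := by
  have hs := hH.2.2.2.2
  rcases h with ⟨h1, h2⟩ | ⟨h1, h3⟩ | ⟨h2, h3⟩
  · refine general24 hH.2.2.2.1 ?_
    rw [hs]
    refine power_lt (by norm_num) (by norm_num) (by norm_num) (by norm_num) ?_
    exact two_near_one (by norm_num) (by norm_num) (by norm_num) (by norm_num)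
      ENNReal.toReal_nonneg h1 h2
  · refine general15 hH.2.2.2.1 ?_
    rw [hs]
    refine power_lt (by norm_num) (by norm_num) (by norm_num) (by norm_num) ?_
    have := two_near_one (a := (15 : ℝ) / 5) (b := 15 / 3) (d := 15 / 7) (M := 15)
      (by norm_num) (by norm_num) (by norm_num) (by norm_num) ENNReal.toReal_nonneg h1 h3
    linarith
  · refine general12 hH.2.2.2.1 ?_
    rw [hs]
    refine power_lt (by norm_num) (by norm_num) (by norm_num) (by norm_num) ?_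
    have := two_near_one (a := (12 : ℝ) / 4) (b := 12 / 3) (d := 12 / 6) (M := 12)
      (by norm_num) (by norm_num) (by norm_num) (by norm_num) ENNReal.toReal_nonneg h2 h3
    linarith

lemma inv_ofReal_one_div {u : ℝ} (hu : 0 < u) :
    ((ENNReal.ofReal (1 / u))⁻¹).toReal = u := by
  rw [ENNReal.toReal_inv, ENNReal.toReal_ofReal (by positivity), one_div, inv_inv]

lemma below_half {r : ℝ} (h3 : 1 / 3 < r) (h2 : r < 1 / 2) :
    ∃ p₁ p₂ p₃ : ℝ≥0∞, IsHolder p₁ p₂ p₃ r ∧ ¬ BoundedAt p₁ p₂ p₃ r := by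
  have hr : 0 < r := by linarith
  obtain ⟨σ, hσ⟩ : ∃ σ : ℝ, 1 / r = σ := ⟨_, rfl⟩
  have hσ2 : 2 < σ := by rw [← hσ, lt_div_iff₀ hr]; linarith
  have hσ3 : σ < 3 := by rw [← hσ, div_lt_iff₀ hr]; linarith
  obtain ⟨u, hu1, hu2, hu3⟩ : ∃ u : ℝ, u < 1 ∧ (4 - σ) / 2 < u ∧ (σ - 1) / 2 < u := by
    obtain ⟨u, hlo, hhi⟩ := exists_between
      (max_lt (show (4 - σ) / 2 < 1 by linarith) (show (σ - 1) / 2 < 1 by linarith))
    exact ⟨u, hhi, (le_max_left _ _).trans_lt hlo, (le_max_right _ _).trans_lt hlo⟩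
  have hu0 : 0 < u := by linarith
  have hz0 : 0 < σ - 2 * u := by linarith
  have hH : IsHolder (ENNReal.ofReal (1 / u)) (ENNReal.ofReal (1 / u))
      (ENNReal.ofReal (1 / (σ - 2 * u))) r := by
    refine ⟨?_, ?_, ?_, hr, ?_⟩
    · exact ENNReal.one_lt_ofReal.2 (one_lt_one_div hu0 hu1)
    · exact ENNReal.one_lt_ofReal.2 (one_lt_one_div hu0 hu1)
    · exact ENNReal.one_lt_ofReal.2 (one_lt_one_div hz0 (by linarith))
    · rw [inv_ofReal_one_div hu0, inv_ofReal_one_div hz0, hσ]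
      ring
  refine ⟨_, _, _, hH, pair_near_one hH (Or.inl ?_)⟩
  rw [inv_ofReal_one_div hu0, inv_ofReal_one_div hz0]
  constructor <;> linarith

/-- The trilinear Hilbert transform with slopes `1, 2, 3`: for every `r` in `(1/3, 1/2)` it is
unbounded at some Hölder tuple; it is unbounded whenever two of the `1/pᵢ` exceed one minus a
quarter of the remaining one, in four explicit half-spaces, and at `(p, p, p, p/3)` for
`1 < p < 3 - log 120 / log 18`, a range that contains `1 < p ≤ 67/50`. -/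
theorem result :
    (∀ r : ℝ, 1 / 3 < r → r < 1 / 2 →
      ∃ p₁ p₂ p₃ : ℝ≥0∞, IsHolder p₁ p₂ p₃ r ∧ ¬ BoundedAt p₁ p₂ p₃ r) ∧
    (∀ (p₁ p₂ p₃ : ℝ≥0∞) (r : ℝ), IsHolder p₁ p₂ p₃ r →
      ((1 - (p₃⁻¹).toReal / 4 < (p₁⁻¹).toReal ∧ 1 - (p₃⁻¹).toReal / 4 < (p₂⁻¹).toReal) ∨
      (1 - (p₂⁻¹).toReal / 4 < (p₁⁻¹).toReal ∧ 1 - (p₂⁻¹).toReal / 4 < (p₃⁻¹).toReal) ∨
      (1 - (p₁⁻¹).toReal / 4 < (p₂⁻¹).toReal ∧ 1 - (p₁⁻¹).toReal / 4 < (p₃⁻¹).toReal)) →
      ¬ BoundedAt p₁ p₂ p₃ r) ∧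
    (∀ (p₁ p₂ p₃ : ℝ≥0∞) (r : ℝ), IsHolder p₁ p₂ p₃ r →
      (18 * (5 : ℝ) ^ (p₁⁻¹).toReal * 4 ^ (p₂⁻¹).toReal * 6 ^ (p₃⁻¹).toReal < 18 ^ (1 / r) ∨
      24 * (6 : ℝ) ^ (p₁⁻¹).toReal * 4 ^ (p₂⁻¹).toReal * 9 ^ (p₃⁻¹).toReal < 24 ^ (1 / r) ∨
      15 * (5 : ℝ) ^ (p₁⁻¹).toReal * 7 ^ (p₂⁻¹).toReal * 3 ^ (p₃⁻¹).toReal < 15 ^ (1 / r) ∨
      12 * (6 : ℝ) ^ (p₁⁻¹).toReal * 4 ^ (p₂⁻¹).toReal * 3 ^ (p₃⁻¹).toReal < 12 ^ (1 / r)) →
      ¬ BoundedAt p₁ p₂ p₃ r) ∧
    (∀ p : ℝ, 1 < p → p < 3 - Real.log 120 / Real.log 18 →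
      IsHolder (ENNReal.ofReal p) (ENNReal.ofReal p) (ENNReal.ofReal p) (p / 3) ∧
      ¬ BoundedAt (ENNReal.ofReal p) (ENNReal.ofReal p) (ENNReal.ofReal p) (p / 3)) ∧
    (67 / 50 : ℝ) < 3 - Real.log 120 / Real.log 18 :=
  ⟨fun _ h3 h2 => below_half h3 h2, fun _ _ _ _ hH h => pair_near_one hH h,
    fun _ _ _ _ hH h => h.elim (general hH.2.2.2.1) fun h => h.elim (general24 hH.2.2.2.1)
      fun h => h.elim (general15 hH.2.2.2.1) (general12 hH.2.2.2.1),
    fun _ hp hp' => diagonal hp hp', threshold⟩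

end Vale.Agent.Results.P141.Unbounded
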